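import Vale.Agent.Lib.P062.Part.Table

namespace Vale.Agent.P062.Part

theorem chk9 : checkRange tget 512 4608 = true := by decide +kernel

end Vale.Agent.P062.Part
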