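import Vale.Agent.Lib.P062.Cover
import Vale.Agent.Lib.P062.Part.Roots
import Vale.Agent.Lib.P062.Part.C0
import Vale.Agent.Lib.P062.Part.C1
import Vale.Agent.Lib.P062.Part.C2
import Vale.Agent.Lib.P062.Part.C3
import Vale.Agent.Lib.P062.Part.C4
import Vale.Agent.Lib.P062.Part.C5
import Vale.Agent.Lib.P062.Part.C6
import Vale.Agent.Lib.P062.Part.C7
import Vale.Agent.Lib.P062.Part.C8
import Vale.Agent.Lib.P062.Part.C9
import Vale.Agent.Lib.P062.Part.C10
import Vale.Agent.Lib.P062.Part.C11
import Vale.Agent.Lib.P062.Part.C12
import Vale.Agent.Lib.P062.Part.C13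
import Vale.Agent.Lib.P062.Part.C14
import Vale.Agent.Lib.P062.Part.C15
import Vale.Agent.Lib.P062.Part.C16
import Vale.Agent.Lib.P062.Part.C17
import Vale.Agent.Lib.P062.Part.C18

namespace Vale.Agent.P062.Part

theorem table_ok : ∀ k < 9691, checkEntry tget k = true := by
  intro k hk
  by_cases h0 : k < 512
  · exact checkRange_spec tget _ _ chk0 k (by omega) (by omega)
  by_cases h1 : k < 1024
  · exact checkRange_spec tget _ _ chk1 k (by omega) (by omega)
  by_cases h2 : k < 1536
  · exact checkRange_spec tget _ _ chk2 k (by omega) (by omega)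
  by_cases h3 : k < 2048
  · exact checkRange_spec tget _ _ chk3 k (by omega) (by omega)
  by_cases h4 : k < 2560
  · exact checkRange_spec tget _ _ chk4 k (by omega) (by omega)
  by_cases h5 : k < 3072
  · exact checkRange_spec tget _ _ chk5 k (by omega) (by omega)
  by_cases h6 : k < 3584
  · exact checkRange_spec tget _ _ chk6 k (by omega) (by omega)
  by_cases h7 : k < 4096
  · exact checkRange_spec tget _ _ chk7 k (by omega) (by omega)
  by_cases h8 : k < 4608
  · exact checkRange_spec tget _ _ chk8 k (by omega) (by omega)
  by_cases h9 : k < 5120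
  · exact checkRange_spec tget _ _ chk9 k (by omega) (by omega)
  by_cases h10 : k < 5632
  · exact checkRange_spec tget _ _ chk10 k (by omega) (by omega)
  by_cases h11 : k < 6144
  · exact checkRange_spec tget _ _ chk11 k (by omega) (by omega)
  by_cases h12 : k < 6656
  · exact checkRange_spec tget _ _ chk12 k (by omega) (by omega)
  by_cases h13 : k < 7168
  · exact checkRange_spec tget _ _ chk13 k (by omega) (by omega)
  by_cases h14 : k < 7680
  · exact checkRange_spec tget _ _ chk14 k (by omega) (by omega)
  by_cases h15 : k < 8192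
  · exact checkRange_spec tget _ _ chk15 k (by omega) (by omega)
  by_cases h16 : k < 8704
  · exact checkRange_spec tget _ _ chk16 k (by omega) (by omega)
  by_cases h17 : k < 9216
  · exact checkRange_spec tget _ _ chk17 k (by omega) (by omega)
  by_cases h18 : k < 9691
  · exact checkRange_spec tget _ _ chk18 k (by omega) (by omega)
  omega

theorem reply_wins (b : Cell) (hb : b ≠ (0, 0)) (hexc : b ∉ exc) :
    ∃ N, MWins N {(0, 0)} {b} :=
  cover_wins tget 9691 roots exc (table_sound tget 9691 table_ok) roots_ok (by decide) cover_ok b hb hexc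

end Vale.Agent.P062.Part
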