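import Vale.Agent.Lib.P062.Part.D0
import Vale.Agent.Lib.P062.Part.D1
import Vale.Agent.Lib.P062.Part.D2
import Vale.Agent.Lib.P062.Part.D3
import Vale.Agent.Lib.P062.Part.D4
import Vale.Agent.Lib.P062.Part.D5
import Vale.Agent.Lib.P062.Part.D6
import Vale.Agent.Lib.P062.Part.D7
import Vale.Agent.Lib.P062.Part.D8
import Vale.Agent.Lib.P062.Part.D9
import Vale.Agent.Lib.P062.Part.D10
import Vale.Agent.Lib.P062.Part.D11
import Vale.Agent.Lib.P062.Part.D12
import Vale.Agent.Lib.P062.Part.D13
import Vale.Agent.Lib.P062.Part.D14
import Vale.Agent.Lib.P062.Part.D15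
import Vale.Agent.Lib.P062.Part.D16
import Vale.Agent.Lib.P062.Part.D17
import Vale.Agent.Lib.P062.Part.D18

/-! The table. -/

namespace Vale.Agent.P062.Part

def u0_0 : Tree :=
  (.node (.node (.node (.node (.node t0 t1) (.node t2 t3)) (.node (.node t4 t5) (.node t6 t7))) (.node (.node (.node t8 t9) (.node t10 t11)) (.node (.node t12 t13) (.node t14 t15)))) (.node (.node (.node (.node t16 t17) (.node t18 t19)) (.node (.node t20 t21) (.node t22 t23))) (.node (.node (.node t24 t25) (.node t26 t27)) (.node (.node t28 t29) (.node t30 t31)))))

def u0_1 : Tree :=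
  (.node (.node (.node (.node (.node t32 t33) (.node t34 t35)) (.node (.node t36 t37) (.node t38 t39))) (.node (.node (.node t40 t41) (.node t42 t43)) (.node (.node t44 t45) (.node t46 t47)))) (.node (.node (.node (.node t48 t49) (.node t50 t51)) (.node (.node t52 t53) (.node t54 t55))) (.node (.node (.node t56 t57) (.node t58 t59)) (.node (.node t60 t61) (.node t62 t63)))))

def u0_2 : Tree :=
  (.node (.node (.node (.node (.node t64 t65) (.node t66 t67)) (.node (.node t68 t69) (.node t70 t71))) (.node (.node (.node t72 t73) (.node t74 t75)) (.node (.node t76 t77) (.node t78 t79)))) (.node (.node (.node (.node t80 t81) (.node t82 t83)) (.node (.node t84 t85) (.node t86 t87))) (.node (.node (.node t88 t89) (.node t90 t91)) (.node (.node t92 t93) (.node t94 t95)))))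

def u0_3 : Tree :=
  (.node (.node (.node (.node (.node t96 t97) (.node t98 t99)) (.node (.node t100 t101) (.node t102 t103))) (.node (.node (.node t104 t105) (.node t106 t107)) (.node (.node t108 t109) (.node t110 t111)))) (.node (.node (.node (.node t112 t113) (.node t114 t115)) (.node (.node t116 t117) (.node t118 t119))) (.node (.node (.node t120 t121) (.node t122 t123)) (.node (.node t124 t125) (.node t126 t127)))))

def u0_4 : Tree :=
  (.node (.node (.node (.node (.node t128 t129) (.node t130 t131)) (.node (.node t132 t133) (.node t134 t135))) (.node (.node (.node t136 t137) (.node t138 t139)) (.node (.node t140 t141) (.node t142 t143)))) (.node (.node (.node (.node t144 t145) (.node t146 t147)) (.node (.node t148 t149) (.node t150 t151))) (.node (.node (.node t152 t153) (.node t154 t155)) (.node (.node t156 t157) (.node t158 t159)))))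

def u0_5 : Tree :=
  (.node (.node (.node (.node (.node t160 t161) (.node t162 t163)) (.node (.node t164 t165) (.node t166 t167))) (.node (.node (.node t168 t169) (.node t170 t171)) (.node (.node t172 t173) (.node t174 t175)))) (.node (.node (.node (.node t176 t177) (.node t178 t179)) (.node (.node t180 t181) (.node t182 t183))) (.node (.node (.node t184 t185) (.node t186 t187)) (.node (.node t188 t189) (.node t190 t191)))))

def u0_6 : Tree :=
  (.node (.node (.node (.node (.node t192 t193) (.node t194 t195)) (.node (.node t196 t197) (.node t198 t199))) (.node (.node (.node t200 t201) (.node t202 t203)) (.node (.node t204 t205) (.node t206 t207)))) (.node (.node (.node (.node t208 t209) (.node t210 t211)) (.node (.node t212 t213) (.node t214 t215))) (.node (.node (.node t216 t217) (.node t218 t219)) (.node (.node t220 t221) (.node t222 t223)))))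

def u0_7 : Tree :=
  (.node (.node (.node (.node (.node t224 t225) (.node t226 t227)) (.node (.node t228 t229) (.node t230 t231))) (.node (.node (.node t232 t233) (.node t234 t235)) (.node (.node t236 t237) (.node t238 t239)))) (.node (.node (.node (.node t240 t241) (.node t242 t243)) (.node (.node t244 t245) (.node t246 t247))) (.node (.node (.node t248 t249) (.node t250 t251)) (.node (.node t252 t253) (.node t254 t255)))))

def u0_8 : Tree :=
  (.node (.node (.node (.node (.node t256 t257) (.node t258 t259)) (.node (.node t260 t261) (.node t262 t263))) (.node (.node (.node t264 t265) (.node t266 t267)) (.node (.node t268 t269) (.node t270 t271)))) (.node (.node (.node (.node t272 t273) (.node t274 t275)) (.node (.node t276 t277) (.node t278 t279))) (.node (.node (.node t280 t281) (.node t282 t283)) (.node (.node t284 t285) (.node t286 t287)))))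

def u0_9 : Tree :=
  (.node (.node (.node (.node (.node t288 t289) (.node t290 t291)) (.node (.node t292 t293) (.node t294 t295))) (.node (.node (.node t296 t297) (.node t298 t299)) (.node (.node t300 t301) (.node t302 (.leaf 0))))) (.leaf 0))

/-- The table. -/
def tab : Tree :=
  (.node (.node (.node (.node u0_0 u0_1) (.node u0_2 u0_3)) (.node (.node u0_4 u0_5) (.node u0_6 u0_7))) (.node (.node (.node u0_8 u0_9) (.leaf 0)) (.leaf 0)))

/-- Entry number `k` of the table. -/
def tget (k : Nat) : Nat := tab.get 14 k

end Vale.Agent.P062.Part
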